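import Vale.Agent.P181.GK.Defs
import Vale.Agent.P181.R2.H822.V7
import Vale.Agent.P181.R2.H425.V1
import Vale.Agent.P181.R2.H130.V4

set_option autoImplicit false

/-!
# P181, GK: block (G7), the gap killer from (G2), (G3), (G6)
-/

open scoped TensorProduct

namespace Vale.Agent.P181.GK.H487

open Vale.Agent.P181 Vale.Agent.P181.H280 Vale.Agent.P181.FR Vale.Agent.P181.H54
open Vale.Agent.P181.VT Vale.Agent.P181.VT.H822V7 MvPolynomial

/-- the first two coordinates. -/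
def ix (n : ℕ) : Fin (1 + 1) → Fin (n + 2) := Fin.cons 0 fun _ => 1

theorem xx_eq {B n : ℕ} (p : Fin B → Fin (n + 2) → ℂ) (j : Fin B) : xx p j = p j ∘ ix n := by
  funext i
  refine Fin.cases rfl (fun _ => rfl) i

theorem xx_mem {B n N0 : ℕ} {G : (Fin B → Fin (1 + 1) → ℂ) → ℂ} (hG : G ∈ MP B (1 + 1) N0) :
    (fun p : Fin B → Fin (n + 2) → ℂ => G (xx p)) ∈ MP B (n + 2) N0 := by
  refine Submodule.span_induction (p := fun (G : (Fin B → Fin (1 + 1) → ℂ) → ℂ) _ =>
    (fun p : Fin B → Fin (n + 2) → ℂ => G (xx p)) ∈ MP B (n + 2) N0) ?_ ?_ ?_ ?_ hG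
  · rintro _ ⟨Q, hQ, rfl⟩
    refine Submodule.subset_span ⟨fun j => rename (ix n) (Q j),
      fun j => (hQ j).rename_isHomogeneous, ?_⟩
    funext p
    refine Finset.prod_congr rfl (fun j _ => ?_)
    rw [eval_rename, xx_eq]
  · exact Submodule.zero_mem _
  · intro F G _ _ hF hG
    exact Submodule.add_mem _ hF hG
  · intro a F _ hF
    exact Submodule.smul_mem _ a hF

/-- the upper left block. -/
def gg {n : ℕ} (g : Matrix (Fin (n + 2)) (Fin (n + 2)) ℂ) : Matrix (Fin (1 + 1)) (Fin (1 + 1)) ℂ :=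
  g.submatrix (ix n) (ix n)

theorem gg_borel {n : ℕ} {g : Matrix (Fin (n + 2)) (Fin (n + 2)) ℂ} (hg : IsBorel g) :
    IsBorel (gg g) := by
  refine ⟨fun i j hij => ?_, fun i => hg.2 _⟩
  have h0 : j = 0 := by
    apply Fin.ext
    have := i.isLt
    have h := Fin.lt_def.mp hij
    simp only [Fin.val_zero]
    omega
  have h1 : i = 1 := by
    apply Fin.ext
    have := i.isLt
    have h := Fin.lt_def.mp hij
    simp only [Fin.val_one]
    omega
  subst h0 h1
  exact hg.1 _ _ (by simp [ix])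

theorem xx_vecMul {B n : ℕ} {g : Matrix (Fin (n + 2)) (Fin (n + 2)) ℂ} (hg : IsBorel g)
    (p : Fin B → Fin (n + 2) → ℂ) :
    xx (fun j => Matrix.vecMul (p j) g) = fun j => Matrix.vecMul (xx p j) (gg g) := by
  funext j i
  have hz : ∀ (m : Fin n) (i : Fin (1 + 1)), g m.succ.succ (ix n i) = 0 := by
    intro m i
    apply hg.1
    refine Fin.cases ?_ (fun _ => ?_) i
    · simp [ix]
    · simp [ix, Fin.lt_def]
  rw [xx_eq]
  simp only [Function.comp, Matrix.vecMul, dotProduct]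
  rw [Fin.sum_univ_succ, Fin.sum_univ_succ, Fin.sum_univ_succ, Fin.sum_univ_succ]
  have e1 : ∑ m : Fin n, p j m.succ.succ * g m.succ.succ (ix n i) = 0 :=
    Finset.sum_eq_zero (fun m _ => by rw [hz, mul_zero])
  rw [e1]
  simp only [Finset.univ_eq_empty, Finset.sum_empty]
  rfl

theorem eval_smul {m a : ℕ} {q : MvPolynomial (Fin m) ℂ} (hq : q.IsHomogeneous a) (t : ℂ)
    (p : Fin m → ℂ) : eval (t • p) q = t ^ a * eval p q := by
  rw [eval_eq', eval_eq', Finset.mul_sum]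
  refine Finset.sum_congr rfl (fun d hd => ?_)
  have h := hq (mem_support_iff.1 hd)
  have h' : ∑ i, d i = a := by
    rw [← h, Finsupp.weight_apply, Finsupp.sum_fintype _ _ (fun i => by simp)]
    exact Finset.sum_congr rfl (fun i _ => by simp)
  simp only [Pi.smul_apply, smul_eq_mul, mul_pow, Finset.prod_mul_distrib]
  rw [Finset.prod_pow_eq_pow_sum, h']
  ring

theorem MP_smul {B m a : ℕ} {G : (Fin B → Fin m → ℂ) → ℂ} (hG : G ∈ MP B m a) (t : ℂ)
    (p : Fin B → Fin m → ℂ) : G (fun j => t • p j) = t ^ (B * a) * G p := by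
  refine Submodule.span_induction (p := fun (G : (Fin B → Fin m → ℂ) → ℂ) _ =>
    G (fun j => t • p j) = t ^ (B * a) * G p) ?_ ?_ ?_ ?_ hG
  · rintro _ ⟨Q, hQ, rfl⟩
    show ∏ j, eval (t • p j) (Q j) = t ^ (B * a) * ∏ j, eval (p j) (Q j)
    rw [Finset.prod_congr rfl (fun j _ => eval_smul (hQ j) t (p j)), Finset.prod_mul_distrib,
      Finset.prod_const, Finset.card_univ, Fintype.card_fin, ← pow_mul, mul_comm a B]
  · simp
  · intro F G _ _ hF hG
    rw [Pi.add_apply, Pi.add_apply, hF, hG, mul_add]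
  · intro a F _ hF
    rw [Pi.smul_apply, Pi.smul_apply, hF, smul_eq_mul, smul_eq_mul]
    ring

theorem deg_eq {N0 N1 : ℕ} {q : (Fin (nn 1) → Fin (1 + 1) → ℂ) → ℂ}
    {z : Fin (nn 1) → Fin (1 + 1) → ℂ} (hS : SepQ 1 N0 N1 q z) : 5 * N0 = 2 * N1 := by
  obtain ⟨hq, hw, hz, -, -⟩ := hS
  have hb : IsBorel ((2 : ℂ) • (1 : Matrix (Fin (1 + 1)) (Fin (1 + 1)) ℂ)) := by
    refine ⟨fun i j hij => ?_, fun i => ?_⟩
    · rw [Matrix.smul_apply, Matrix.one_apply_ne (ne_of_gt hij), smul_zero]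
    · rw [Matrix.smul_apply, Matrix.one_apply_eq]
      simp
  have h1 := hw _ hb z
  have h2 : (fun j => Matrix.vecMul (z j) ((2 : ℂ) • (1 : Matrix (Fin (1 + 1)) (Fin (1 + 1)) ℂ))) =
      fun j => (2 : ℂ) • z j := by
    funext j
    rw [Matrix.vecMul_smul, Matrix.vecMul_one]
  rw [h2, MP_smul hq] at h1
  have h3 := mul_right_cancel₀ hz h1
  have h4 : (∏ i : Fin (1 + 1), ((2 : ℂ) • (1 : Matrix (Fin (1 + 1)) (Fin (1 + 1)) ℂ)) i i ^
      (N1 • om (1 + 1) (1 + 1)) i) = 2 ^ (2 * N1) := by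
    have h5 : ∀ i : Fin (1 + 1), ((2 : ℂ) • (1 : Matrix (Fin (1 + 1)) (Fin (1 + 1)) ℂ)) i i ^
        (N1 • om (1 + 1) (1 + 1)) i = 2 ^ N1 := by
      intro i
      rw [Matrix.smul_apply, Matrix.one_apply_eq, Pi.smul_apply, om, if_pos i.isLt]
      simp
    rw [Finset.prod_congr rfl (fun i _ => h5 i), Finset.prod_const, Finset.card_univ,
      Fintype.card_fin, ← pow_mul]
    congr 1
    ring
  rw [h4] at h3
  have h6 : nn 1 * N0 = 2 * N1 := by
    have h7 : (2 : ℕ) ^ (nn 1 * N0) = 2 ^ (2 * N1) := by exact_mod_cast h3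
    exact Nat.pow_right_injective le_rfl h7
  have h8 : nn 1 = 5 := rfl
  rw [h8] at h6
  exact h6

theorem TG_add {k N n : ℕ} (s : ℕ) (τ : Fin N → Fin k → ℂ) (α : Fin N → ℂ)
    (H : Matrix (Fin (1 + 1)) (Fin (1 + 1)) ℂ) (F F' : (Fin (k * nn 1) → Fin (n + 2) → ℂ) → ℂ)
    (p : Fin (k * nn 1) → Fin (n + 2) → ℂ) :
    TG s τ α H (F + F') p = TG s τ α H F p + TG s τ α H F' p := by
  simp only [TG, Pi.add_apply, mul_add, Finset.sum_add_distrib]

theorem TG_smul {k N n : ℕ} (s : ℕ) (τ : Fin N → Fin k → ℂ) (α : Fin N → ℂ)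
    (H : Matrix (Fin (1 + 1)) (Fin (1 + 1)) ℂ) (t : ℂ)
    (F : (Fin (k * nn 1) → Fin (n + 2) → ℂ) → ℂ) (p : Fin (k * nn 1) → Fin (n + 2) → ℂ) :
    TG s τ α H (t • F) p = t * TG s τ α H F p := by
  simp only [TG, Pi.smul_apply, smul_eq_mul, Finset.mul_sum]
  refine Finset.sum_congr rfl (fun i _ => ?_)
  ring

theorem prod_wt2 {n : ℕ} (g : Matrix (Fin (n + 2)) (Fin (n + 2)) ℂ) (x y : ℕ)
    (lam : Fin (n + 2) → ℕ) : ∏ i, g i i ^ wt2 x y lam i =
      g 0 0 ^ x * (g 1 1 ^ y * ∏ i : Fin n, g i.succ.succ i.succ.succ ^ lam i.succ.succ) := by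
  rw [Fin.prod_univ_succ, Fin.prod_univ_succ]
  rfl

theorem hw_mul {n : ℕ} (g : Matrix (Fin (n + 2)) (Fin (n + 2)) ℂ) (W m : ℕ)
    (lam : Fin (n + 2) → ℕ) : ∏ i, g i i ^ wt2 (W + m) (W + m) lam i =
      (∏ i, g i i ^ wt2 W W lam i) * ∏ i, gg g i i ^ (m • om (1 + 1) (1 + 1)) i := by
  rw [prod_wt2, prod_wt2, Fin.prod_univ_succ, Fin.prod_univ_succ]
  simp only [Pi.smul_apply, om, smul_eq_mul, Finset.univ_eq_empty, Finset.prod_empty, mul_one]
  rw [if_pos (by simp), if_pos (by simp)]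
  have h0 : gg g 0 0 = g 0 0 := rfl
  have h1 : gg g (Fin.succ 0) (Fin.succ 0) = g 1 1 := rfl
  rw [h0, h1, mul_one]
  ring

/-- **(G7)** -/
theorem gapKill_of (g2 : G2) (g3 : G3) (g6 : G6) : GapKill := by
  classical
  obtain ⟨N0, N1, q, z, hS⟩ := v4 1 le_rfl
  refine ⟨N0, N1, deg_eq hS, fun k c s a n lam _ hs hsum => ?_⟩
  obtain ⟨N, τ, α, hP⟩ := v1 k (nn 1 * c)
  obtain ⟨M, H, hM, hinj⟩ := g6 s c a τ α q z lam hP hS hs hsum
  set W := 3 * (lam 0 + lam 1) + 5 * s with hW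
  have hF : ∀ x : hwSpace lam (plethAct (k * nn 1) a (n + 2)),
      HWF (k * nn 1) (n + 2) lam (fun p => ptv x.1 p) := by
    intro x g hg p
    show ptv x.1 (fun j => Matrix.vecMul (p j) g) = _ * ptv x.1 p
    rw [← ptv_act, x.2 g hg, ptv_smul]
  have hmem : ∀ (l : Fin M) (x : hwSpace lam (plethAct (k * nn 1) a (n + 2))),
      TG s τ α (H l) (fun p => ptv x.1 p) * (fun p => QQ q (xx p)) ∈
        MP (k * nn 1) (n + 2) (a + nn 1 * c + N0) := fun l x =>
    MP_mul (g2 s c a τ α (H l) _ lam hP hsum (ptv_mem x.1) (hF x)) (xx_mem (QQ_mem hS.1))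
  choose Y hY using fun (l : Fin M) (x : hwSpace lam (plethAct (k * nn 1) a (n + 2))) =>
    exists_ptv _ (hmem l x)
  have hhw : ∀ (l : Fin M) (x : hwSpace lam (plethAct (k * nn 1) a (n + 2))),
      Y l x ∈ hwSpace (wt2 (W + k * N1) (W + k * N1) lam)
        (plethAct (k * nn 1) (a + nn 1 * c + N0) (n + 2)) := by
    intro l x g hg
    apply ptv_sep
    intro p
    rw [ptv_act, ptv_smul, hY, hY, Finset.mul_sum]
    refine Finset.sum_congr rfl (fun σ _ => ?_)
    have h1 := g3 s a τ α (H l) _ lam hs (ptv_mem x.1) (hF x) g hg (fun j => p (σ j))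
    have h2 := QQ_hw (k := k) hS.2.1 (gg g) (gg_borel hg) (xx fun j => p (σ j))
    rw [← xx_vecMul hg] at h2
    show TG s τ α (H l) (fun p => ptv x.1 p) (fun j => Matrix.vecMul (p (σ j)) g) *
      QQ q (xx fun j => Matrix.vecMul (p (σ j)) g) = _ * (TG s τ α (H l) (fun p => ptv x.1 p)
        (fun j => p (σ j)) * QQ q (xx fun j => p (σ j)))
    rw [← hW] at h1
    rw [h1, h2, hw_mul g W (k * N1) lam]
    ring
  have _inst : Module.Finite ℂ (Pleth (k * nn 1) (a + nn 1 * c + N0) (n + 2)) :=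
    inferInstanceAs (Module.Finite ℂ
      (Sym[ℂ]^(k * nn 1) (Sym[ℂ]^(a + nn 1 * c + N0) (Fin (n + 2) → ℂ))))
  let L : hwSpace lam (plethAct (k * nn 1) a (n + 2)) →ₗ[ℂ] (Fin M →
      hwSpace (wt2 (W + k * N1) (W + k * N1) lam)
        (plethAct (k * nn 1) (a + nn 1 * c + N0) (n + 2))) :=
    { toFun := fun x l => ⟨Y l x, hhw l x⟩
      map_add' := by
        intro x y
        funext l
        apply Subtype.ext
        apply ptv_sep
        intro p
        show ptv (Y l (x + y)) p = ptv (Y l x + Y l y) p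
        rw [ptv_add, hY, hY, hY, ← Finset.sum_add_distrib]
        refine Finset.sum_congr rfl (fun σ _ => ?_)
        have h1 : (fun p => ptv (x + y).1 p) = (fun p => ptv x.1 p) + fun p => ptv y.1 p := by
          funext p
          exact ptv_add x.1 y.1 p
        rw [h1]
        show TG s τ α (H l) (_ + _) _ * _ = TG s τ α (H l) _ _ * _ + TG s τ α (H l) _ _ * _
        rw [TG_add, add_mul]
      map_smul' := by
        intro t x
        funext l
        apply Subtype.ext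
        apply ptv_sep
        intro p
        show ptv (Y l (t • x)) p = ptv (t • Y l x) p
        rw [ptv_smul, hY, hY, Finset.mul_sum]
        refine Finset.sum_congr rfl (fun σ _ => ?_)
        have h1 : (fun p => ptv (t • x).1 p) = t • fun p => ptv x.1 p := by
          funext p
          exact ptv_smul t x.1 p
        rw [h1]
        show TG s τ α (H l) (t • _) _ * _ = t * (TG s τ α (H l) _ _ * _)
        rw [TG_smul, mul_assoc] }
  refine (finrank_le_pi _ M L (fun x hx => ?_)).trans (Nat.mul_le_mul_right _ hM)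
  by_contra hx0
  have hF0 : (fun p : Fin (k * nn 1) → Fin (n + 2) → ℂ => ptv x.1 p) ≠ 0 := by
    intro h
    apply hx0
    apply Subtype.ext
    apply ptv_sep
    intro p
    show ptv x.1 p = ptv (0 : Pleth (k * nn 1) a (n + 2)) p
    rw [ptv_zero]
    exact congrFun h p
  obtain ⟨l, p, hlp⟩ := hinj _ (ptv_mem x.1) (hF x) hF0 (fun σ p => ptv_perm x.1 σ p)
  apply hlp
  have h1 : Y l x = 0 := congrArg Subtype.val (congrFun hx l)
  have h2 := hY l x p
  rw [h1, ptv_zero] at h2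
  rw [h2]
  refine Finset.sum_congr rfl (fun σ _ => ?_)
  exact mul_comm _ _

end Vale.Agent.P181.GK.H487
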