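import Vale.Agent.P181.GK.Defs2

set_option autoImplicit false

/-!
# P181, GK: block (NUM2), the parameters for `b ≥ C a`
-/

namespace Vale.Agent.P181.GK.H487

open Vale.Agent.P181.VT

theorem pow_le_fact (a : ℕ) : a ^ a ≤ 3 ^ a * a.factorial := by
  have h1 : (a : ℝ) ^ a / (a.factorial : ℝ) ≤ Real.exp a :=
    Real.pow_div_factorial_le_exp (a : ℝ) (Nat.cast_nonneg a) a
  have h2 : Real.exp (a : ℝ) ≤ 3 ^ a := by
    have h := Real.exp_one_lt_d9
    have h3 : Real.exp 1 ≤ 3 := by linarith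
    calc Real.exp (a : ℝ) = Real.exp 1 ^ a := by
          rw [← Real.exp_nat_mul, mul_one]
      _ ≤ 3 ^ a := pow_le_pow_left₀ (Real.exp_pos 1).le h3 a
  have h4 : (0 : ℝ) < a.factorial := by exact_mod_cast a.factorial_pos
  have h5 : (a : ℝ) ^ a ≤ 3 ^ a * a.factorial := by
    rw [div_le_iff₀ h4] at h1
    exact h1.trans (mul_le_mul_of_nonneg_right h2 h4.le)
  exact_mod_cast h5

theorem choose_bd (a N : ℕ) : a ^ a * N.choose a ≤ (3 * N) ^ a :=
  calc a ^ a * N.choose a ≤ (3 ^ a * a.factorial) * N.choose a :=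
        Nat.mul_le_mul_right _ (pow_le_fact a)
    _ = 3 ^ a * N.descFactorial a := by
        rw [Nat.descFactorial_eq_factorial_mul_choose, mul_assoc]
    _ ≤ 3 ^ a * N ^ a := Nat.mul_le_mul_left _ (Nat.descFactorial_le_pow N a)
    _ = (3 * N) ^ a := (mul_pow 3 N a).symm

theorem gain_core {a b t q X P : ℕ} (ha : 0 < a) (ht : 2 * a ≤ t) (hb : b ≤ t + a) (hq : 5 ≤ q)
    (hX : 1 ≤ X) (hP : P ^ 4 ≤ 2 ^ a) (h : 11 * t ≤ a * X ^ 2) :
    (a + b).choose a * (a + t - 1).choose t * P ^ 4 ≤ X ^ ((q - 1) * a) := by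
  have f3 : (a + t - 1).choose t ≤ (a + t).choose a := by
    obtain ⟨a', rfl⟩ : ∃ a', a = a' + 1 := ⟨a - 1, by omega⟩
    have e : a' + 1 + t - 1 = a' + t := by omega
    rw [e, ← Nat.choose_symm_add]
    calc (a' + t).choose a' ≤ (a' + t + 1).choose (a' + 1) := by
          rw [Nat.choose_succ_succ]; omega
      _ ≤ (a' + 1 + t).choose (a' + 1) := Nat.choose_le_choose _ (by omega)
  have g1 := choose_bd a (a + b)
  have g2 := choose_bd a (a + t)
  have g3 : 18 * (a + b) * (a + t) ≤ (a * X ^ 2) ^ 2 := by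
    have e1 : a + b ≤ 2 * t := by omega
    have e2 : a + t ≤ 2 * t := by omega
    calc 18 * (a + b) * (a + t) ≤ 18 * (2 * t) * (2 * t) :=
          Nat.mul_le_mul (Nat.mul_le_mul_left _ e1) e2
      _ ≤ (11 * t) ^ 2 := by nlinarith [Nat.zero_le (t * t)]
      _ ≤ (a * X ^ 2) ^ 2 := Nat.pow_le_pow_left h 2
  have hpos : 0 < a ^ a * a ^ a := by positivity
  have key : (a + b).choose a * (a + t - 1).choose t * P ^ 4 ≤ X ^ (4 * a) := by
    refine Nat.le_of_mul_le_mul_left ?_ hpos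
    calc a ^ a * a ^ a * ((a + b).choose a * (a + t - 1).choose t * P ^ 4)
        ≤ a ^ a * a ^ a * ((a + b).choose a * (a + t).choose a * P ^ 4) := by
          gcongr
      _ = (a ^ a * (a + b).choose a) * (a ^ a * (a + t).choose a) * P ^ 4 := by ring
      _ ≤ (3 * (a + b)) ^ a * (3 * (a + t)) ^ a * 2 ^ a := by gcongr
      _ = (18 * (a + b) * (a + t)) ^ a := by
          rw [← mul_pow, ← mul_pow]
          congr 1
          ring
      _ ≤ ((a * X ^ 2) ^ 2) ^ a := Nat.pow_le_pow_left g3 a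
      _ = a ^ a * a ^ a * X ^ (4 * a) := by
          rw [← pow_mul, mul_pow, ← pow_mul, ← pow_add]
          congr 1
          · congr 1
            ring
          · congr 1
            ring
  refine key.trans (Nat.pow_le_pow_right hX ?_)
  exact Nat.mul_le_mul_right _ (by omega)

theorem q_bd {a b t q : ℕ} (ha : 0 < a) (hq : q = 5 + 300 * t / (a * a))
    (h2 : 40000 * t ≤ a * b) (h3 : 1000000 * a ≤ b) :
    5 ≤ q ∧ a * a * (q - 5) ≤ 300 * t ∧ 300 * t < a * a * q ∧ 100 * (a * q) ≤ b := by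
  obtain ⟨Q, hQ⟩ : ∃ Q, Q = 300 * t / (a * a) := ⟨_, rfl⟩
  have haa : 0 < a * a := Nat.mul_pos ha ha
  have h1 : a * a * Q ≤ 300 * t := by rw [hQ]; exact Nat.mul_div_le _ _
  have h4 : 300 * t < a * a * (Q + 1) := by rw [hQ]; exact Nat.lt_mul_div_succ (300 * t) haa
  rw [← hQ] at hq
  clear hQ
  subst hq
  have e0 : 5 + Q - 5 = Q := by omega
  rw [e0]
  refine ⟨by omega, h1, h4.trans_le (Nat.mul_le_mul_left _ (by omega)), ?_⟩
  have e1 : a * (40000 * (a * Q)) ≤ a * (300 * b) := by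
    calc a * (40000 * (a * Q)) = 40000 * (a * a * Q) := by ring
      _ ≤ 40000 * (300 * t) := Nat.mul_le_mul_left _ h1
      _ = 300 * (40000 * t) := by ring
      _ ≤ 300 * (a * b) := Nat.mul_le_mul_left _ h2
      _ = a * (300 * b) := by ring
  have e2 := Nat.le_of_mul_le_mul_left e1 ha
  have e3 : a * (5 + Q) = 5 * a + a * Q := by ring
  rw [e3]
  omega

theorem X_bd {a t q M X m : ℕ} (ha : 0 < a) (hq : 5 ≤ q) (hm : m = 100 * q * q)
    (hM2 : t < a * q * (M + 1)) (hX2 : M < 2 * m * q * (X + 1))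
    (h4 : 2000000 * q ^ 8 * a ≤ t) : 1 ≤ X ∧ 11 * t ≤ a * X ^ 2 := by
  have hmq : 2 * m * q = 200 * q ^ 3 := by rw [hm]; ring
  have hq0 : 1 ≤ q := by omega
  have hXpos : 1 ≤ X := by
    by_contra hc
    have h0 : X = 0 := by omega
    rw [h0, zero_add, mul_one, hmq] at hX2
    have e1 : t < a * q * (200 * q ^ 3) := hM2.trans_le (Nat.mul_le_mul_left _ hX2)
    have e3 : q ^ 4 ≤ q ^ 8 := Nat.pow_le_pow_right hq0 (by norm_num)
    have e2 : a * q * (200 * q ^ 3) ≤ 2000000 * q ^ 8 * a := by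
      calc a * q * (200 * q ^ 3) = 200 * a * q ^ 4 := by ring
        _ ≤ 2000000 * a * q ^ 8 := Nat.mul_le_mul (Nat.mul_le_mul_right _ (by norm_num)) e3
        _ = 2000000 * q ^ 8 * a := by ring
    exact absurd (e1.trans_le (e2.trans h4)) (lt_irrefl t)
  have hXt : t ≤ 400 * a * q ^ 4 * X := by
    have e1 : M + 1 ≤ 2 * m * q * (X + 1) := hX2
    have e2 : X + 1 ≤ 2 * X := by omega
    calc t ≤ a * q * (M + 1) := hM2.le
      _ ≤ a * q * (2 * m * q * (X + 1)) := Nat.mul_le_mul_left _ e1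
      _ = 200 * a * q ^ 4 * (X + 1) := by rw [hmq]; ring
      _ ≤ 200 * a * q ^ 4 * (2 * X) := Nat.mul_le_mul_left _ e2
      _ = 400 * a * q ^ 4 * X := by ring
  refine ⟨hXpos, ?_⟩
  have e0 : 0 < a * q ^ 8 := by positivity
  have e1 : (a * q ^ 8) * (2000000 * t) ≤ (a * q ^ 8) * (160000 * (a * X ^ 2)) := by
    calc (a * q ^ 8) * (2000000 * t) = (2000000 * q ^ 8 * a) * t := by ring
      _ ≤ t * t := Nat.mul_le_mul_right _ h4
      _ ≤ (400 * a * q ^ 4 * X) * (400 * a * q ^ 4 * X) := Nat.mul_le_mul hXt hXt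
      _ = (a * q ^ 8) * (160000 * (a * X ^ 2)) := by ring
  have e2 := Nat.le_of_mul_le_mul_left e1 e0
  generalize a * X ^ 2 = Z at e2 ⊢
  omega

theorem w_bd {a b t q M m A w : ℕ} (ha : 0 < a) (hq : 5 ≤ q) (hm : m = 100 * q * q)
    (hM1 : a * q * M ≤ t) (hqb : 100 * (a * q) ≤ b) (h5 : 10000 * q ≤ a)
    (h3 : 1000000 * a ≤ b) (h2 : 40000 * t ≤ a * b) (hA2 : a ≤ 9 * A)
    (hw : w = q * a * (2 * M + q + q * (a / m) + q) + 4 * (2 * M + q) * q * a) :
    500 * (q * (a / m)) ≤ a ∧ 100 * (w / A) ≤ b := by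
  have e1 : m * (a / m) ≤ a := Nat.mul_div_le _ _
  generalize a / m = d at e1 hw ⊢
  have hqm : 500 * (q * d) ≤ a := by
    have e2 : 500 * q ≤ m := by rw [hm]; nlinarith
    calc 500 * (q * d) = 500 * q * d := by ring
      _ ≤ m * d := Nat.mul_le_mul_right _ e2
      _ ≤ a := e1
  refine ⟨hqm, ?_⟩
  have hqqm : 100 * (q * q * d) ≤ a := by
    calc 100 * (q * q * d) = 100 * q * q * d := by ring
      _ = m * d := by rw [hm]
      _ ≤ a := e1
  have hw' : w = 10 * (a * q * M) + 6 * (q * q * a) + a * (q * q * d) := by rw [hw]; ring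
  have e3 : 100 * (a * (q * q * d)) ≤ a * a := by
    calc 100 * (a * (q * q * d)) = a * (100 * (q * q * d)) := by ring
      _ ≤ a * a := Nat.mul_le_mul_left _ hqqm
  have hqqa : 1000000 * (q * q * a) ≤ a * b := by
    calc 1000000 * (q * q * a) = (10000 * q) * (100 * (a * q)) := by ring
      _ ≤ a * b := Nat.mul_le_mul h5 hqb
  have haab : 1000000 * (a * a) ≤ a * b := by
    calc 1000000 * (a * a) = a * (1000000 * a) := by ring
      _ ≤ a * b := Nat.mul_le_mul_left _ h3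
  have e4 : A * (w / A) ≤ w := Nat.mul_div_le _ _
  generalize w / A = v at e4 ⊢
  have e5 : a * v ≤ 9 * w := by
    calc a * v ≤ 9 * A * v := Nat.mul_le_mul_right _ hA2
      _ = 9 * (A * v) := by ring
      _ ≤ 9 * w := Nat.mul_le_mul_left _ e4
  have e6 : a * (100 * v) ≤ a * b := by
    have e7 : a * (100 * v) = 100 * (a * v) := by ring
    rw [e7]
    generalize a * v = z1 at e5 ⊢
    generalize a * b = z2 at *
    generalize a * a = z3 at *
    generalize q * q * a = z4 at *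
    generalize a * (q * q * d) = z5 at *
    generalize a * q * M = z6 at *
    omega
  exact Nat.le_of_mul_le_mul_left e6 ha

theorem core {N0 a₀ a b t q : ℕ} (hq : q = 5 + 300 * t / (a * a)) (h2 : 40000 * t ≤ a * b)
    (h3 : 1000000 * a ≤ b) (h4 : 2000000 * q ^ 8 * a ≤ t) (h5 : 10000 * q ≤ a)
    (h6 : 100 * (N0 + a₀ + 5) ≤ a) (h8 : (a * b + 1) ^ 4 ≤ 2 ^ a) (hb : b ≤ t + a) :
    ∃ A k' c s q m X w : ℕ, Par N0 a₀ a b t A k' c s q m X w := by
  have ha : 0 < a := by omega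
  obtain ⟨hq5, -, hQ2, hqb⟩ := q_bd ha hq h2 h3
  clear hq
  have haq : 0 < a * q := Nat.mul_pos ha (by omega)
  -- the quotient `M = t / a / q`
  obtain ⟨M, hM⟩ : ∃ M, M = t / a / q := ⟨_, rfl⟩
  have hM' : M = t / (a * q) := by rw [hM, Nat.div_div_eq_div_mul]
  have hM1 : a * q * M ≤ t := by rw [hM']; exact Nat.mul_div_le t _
  have hM2 : t < a * q * (M + 1) := by rw [hM']; exact Nat.lt_mul_div_succ t haq
  have hM3 : 300 * M ≤ a := by
    have e1 : (a * q) * (300 * M) ≤ (a * q) * a := by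
      calc (a * q) * (300 * M) = 300 * (a * q * M) := by ring
        _ ≤ 300 * t := Nat.mul_le_mul_left _ hM1
        _ ≤ a * a * q := hQ2.le
        _ = (a * q) * a := by ring
    exact Nat.le_of_mul_le_mul_left e1 haq
  -- `X`
  obtain ⟨m, hm⟩ : ∃ m, m = 100 * q * q := ⟨_, rfl⟩
  have hm1 : 1 ≤ m := by rw [hm]; nlinarith
  have hmq0 : 0 < 2 * m * q := by positivity
  obtain ⟨X, hX⟩ : ∃ X, X = M / (2 * m * q) := ⟨_, rfl⟩
  have hX1 : 2 * m * q * X ≤ M := by rw [hX]; exact Nat.mul_div_le _ _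
  have hX2 : M < 2 * m * q * (X + 1) := by rw [hX]; exact Nat.lt_mul_div_succ _ hmq0
  obtain ⟨hXpos, h11⟩ := X_bd ha hq5 hm hM2 hX2 h4
  have ht2 : 2 * a ≤ t := by omega
  obtain ⟨A, hA⟩ : ∃ A, A = a / 8 := ⟨_, rfl⟩
  have hA1 : 8 * A ≤ a := by omega
  have hA2 : a ≤ 9 * A := by omega
  obtain ⟨w, hw⟩ : ∃ w, w = q * a * (2 * M + q + q * (a / m) + q) + 4 * (2 * M + q) * q * a :=
    ⟨_, rfl⟩
  obtain ⟨hqm, hwA⟩ := w_bd ha hq5 hm hM1 hqb h5 h3 h2 hA2 hw
  obtain ⟨k', hk'⟩ : ∃ k', k' = b / 20 - (b / 20 + t) % 2 := ⟨_, rfl⟩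
  have hk1 : 20 * k' ≤ b := by omega
  have hk2 : b ≤ 20 * k' + 40 := by omega
  have hk3 : k' % 2 = t % 2 := by omega
  have hnn : nn 1 = 5 := rfl
  clear hk' h4 h2 hQ2 hM2 hX2 hX hM'
  have p1 : 2 * m * q * X ≤ t / a / q := by rw [← hM]; exact hX1
  have p2 : 2 * (2 * (t / a / q) + q + q * (a / m) + q + 1) ≤ A := by
    rw [← hM]
    generalize q * (a / m) = d at hqm ⊢
    clear h8 hw hwA p1 hX1 hm hmq0 haq h11 hqb
    omega
  have p3 : q * a * (2 * (t / a / q) + q + q * (a / m) + q) +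
      4 * (2 * (t / a / q) + q) * q * a ≤ w := by rw [← hM, hw]
  have p4 : 3 * q * a + 3 * (w / A) + 3 ≤ k' * nn 1 := by
    rw [hnn]
    have : 3 * q * a = 3 * (a * q) := by ring
    rw [this]
    generalize a * q = z at hqb ⊢
    generalize w / A = v at hwA ⊢
    clear h8 hw p1 p2 p3 hX1 hm hmq0 haq h11 hqm hM1
    omega
  have p5 : A * (k' * nn 1) + 2 * ((k' * 5 + t) / 2) = k' * nn 1 * (A + 1) + t := by
    rw [hnn]
    have e1 : 2 * ((k' * 5 + t) / 2) = k' * 5 + t := by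
      clear h8 hw p1 p2 p3 hX1 hm hmq0 haq h11 hqm hM1 hwA p4 hM
      omega
    rw [e1]
    ring
  have p6 : (a + b).choose a * (a + t - 1).choose t * (k' * nn 1 * (A + 1) + 1) ^ 4 ≤
      X ^ ((q - 1) * a) := by
    rw [hnn]
    refine gain_core ha ht2 hb hq5 hXpos ((Nat.pow_le_pow_left ?_ 4).trans h8) h11
    have e3 : k' * 5 ≤ b := by
      clear h8 hw p1 p2 p3 hX1 hm hmq0 haq h11 hqm hM1 hwA p4 hM p5
      omega
    have e4 : A + 1 ≤ a := by
      clear h8 hw p1 p2 p3 hX1 hm hmq0 haq h11 hqm hM1 hwA p4 hM p5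
      omega
    have e1 : k' * 5 * (A + 1) ≤ b * a := Nat.mul_le_mul e3 e4
    rw [mul_comm a b]
    exact Nat.add_le_add_right e1 1
  clear h8 hw hX1 hm hmq0 haq h11 hqm hM1 hwA hM
  refine ⟨A, k', A + 1, (k' * 5 + t) / 2, q, m, X, w, ha, ?_, ?_, hm1, hXpos, ?_, ?_, p1, p2, p3,
    p4, p5, ?_, ?_, ?_, ?_, p6⟩
  all_goals clear p1 p2 p3 p4 p5 p6
  all_goals first | omega | (rw [hnn]; omega)

theorem ev_log (C₀ c₀ : ℝ) (hC : 0 < C₀) (K : ℕ) : ∀ᶠ a : ℕ in Filter.atTop,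
    (K : ℝ) * (5 + C₀ * (1 + Real.log a) ^ c₀) ^ 8 ≤ a := by
  obtain ⟨p, hp⟩ := exists_nat_ge c₀
  have hD : (0 : ℝ) < 5 + C₀ * 2 ^ p := by positivity
  have h1 := (Real.isLittleO_pow_log_id_atTop (n := 8 * p)).bound
    (show (0 : ℝ) < 1 / (((K : ℝ) + 1) * (5 + C₀ * 2 ^ p) ^ 8) by positivity)
  have h2 := tendsto_natCast_atTop_atTop.eventually h1
  filter_upwards [h2, Filter.eventually_ge_atTop 3] with a ha h3
  have h3' : (3 : ℝ) ≤ a := by exact_mod_cast h3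
  have hlog : 1 ≤ Real.log a := by
    rw [Real.le_log_iff_exp_le (by linarith)]
    have := Real.exp_one_lt_d9
    linarith
  have e1 : (1 + Real.log a) ^ c₀ ≤ (2 * Real.log a) ^ p := by
    calc (1 + Real.log a) ^ c₀ ≤ (1 + Real.log a) ^ (p : ℝ) :=
          Real.rpow_le_rpow_of_exponent_le (by linarith) hp
      _ = (1 + Real.log a) ^ p := Real.rpow_natCast _ _
      _ ≤ (2 * Real.log a) ^ p := pow_le_pow_left₀ (by linarith) (by linarith) p
  have e2 : 1 ≤ Real.log a ^ p := one_le_pow₀ hlog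
  have e3 : 5 + C₀ * (1 + Real.log a) ^ c₀ ≤ (5 + C₀ * 2 ^ p) * Real.log a ^ p := by
    have : C₀ * (1 + Real.log a) ^ c₀ ≤ C₀ * (2 ^ p * Real.log a ^ p) := by
      rw [← mul_pow]
      exact mul_le_mul_of_nonneg_left e1 hC.le
    nlinarith
  have e0 : 0 ≤ 5 + C₀ * (1 + Real.log a) ^ c₀ := by
    have : 0 ≤ (1 + Real.log a) ^ c₀ := Real.rpow_nonneg (by linarith) _
    positivity
  have e4 : (5 + C₀ * (1 + Real.log a) ^ c₀) ^ 8 ≤
      (5 + C₀ * 2 ^ p) ^ 8 * Real.log a ^ (8 * p) := by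
    calc (5 + C₀ * (1 + Real.log a) ^ c₀) ^ 8 ≤ ((5 + C₀ * 2 ^ p) * Real.log a ^ p) ^ 8 :=
          pow_le_pow_left₀ e0 e3 8
      _ = _ := by rw [mul_pow, ← pow_mul, mul_comm p 8]
  simp only [id_eq, Real.norm_eq_abs] at ha
  rw [abs_of_nonneg (by positivity), abs_of_nonneg (by positivity), div_mul_eq_mul_div, one_mul,
    le_div_iff₀ (by positivity)] at ha
  have e5 : 0 ≤ Real.log a ^ (8 * p) := by positivity
  have e6 : (0 : ℝ) ≤ (5 + C₀ * 2 ^ p) ^ 8 := by positivity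
  calc (K : ℝ) * (5 + C₀ * (1 + Real.log a) ^ c₀) ^ 8
      ≤ (K : ℝ) * ((5 + C₀ * 2 ^ p) ^ 8 * Real.log a ^ (8 * p)) :=
        mul_le_mul_of_nonneg_left e4 (Nat.cast_nonneg K)
    _ ≤ Real.log a ^ (8 * p) * (((K : ℝ) + 1) * (5 + C₀ * 2 ^ p) ^ 8) := by
        have : 0 ≤ (5 + C₀ * 2 ^ p) ^ 8 * Real.log a ^ (8 * p) := mul_nonneg e6 e5
        nlinarith
    _ ≤ a := ha

theorem ev_two : ∀ᶠ a : ℕ in Filter.atTop, (a * (a * a) + 1) ^ 4 ≤ 2 ^ a := by
  have h1 : ∀ᶠ a : ℕ in Filter.atTop, (a : ℝ) ^ 13 ≤ 2 ^ a := by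
    have h := (isLittleO_pow_const_const_pow_of_one_lt (R := ℝ) 13
      (show (1 : ℝ) < 2 by norm_num)).bound (show (0 : ℝ) < 1 by norm_num)
    filter_upwards [h] with a ha
    rw [Real.norm_eq_abs, Real.norm_eq_abs, one_mul, abs_of_nonneg (by positivity),
      abs_of_nonneg (by positivity)] at ha
    exact ha
  filter_upwards [h1, Filter.eventually_ge_atTop 16] with a ha h16
  have h2 : a ^ 13 ≤ 2 ^ a := by exact_mod_cast ha
  refine le_trans ?_ h2
  have h3 : a * (a * a) + 1 ≤ 2 * a ^ 3 := by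
    have : 1 ≤ a ^ 3 := Nat.one_le_pow _ _ (by omega)
    have e : a * (a * a) = a ^ 3 := by ring
    omega
  calc (a * (a * a) + 1) ^ 4 ≤ (2 * a ^ 3) ^ 4 := Nat.pow_le_pow_left h3 4
    _ = 16 * a ^ 12 := by ring
    _ ≤ a * a ^ 12 := Nat.mul_le_mul_right _ h16
    _ = a ^ 13 := by ring

/-- **(NUM2)** -/
theorem numC : NumC := by
  intro N0 a₀ C₀ c₀ hC₀ hc₀
  obtain ⟨a₁, h⟩ := Filter.eventually_atTop.1 ((ev_log C₀ c₀ hC₀ 600000000).and
    (ev_two.and (Filter.eventually_ge_atTop (100 * (N0 + a₀ + 5)))))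
  refine ⟨4000000000000, a₁, fun a b t ha hb hbt hbL ht => ?_⟩
  obtain ⟨hL, h2, h6⟩ := h a ha
  have ha0 : 0 < a := by omega
  have ha' : (0 : ℝ) < a := by exact_mod_cast ha0
  obtain ⟨q, hq⟩ : ∃ q, q = 5 + 300 * t / (a * a) := ⟨_, rfl⟩
  -- the real bound `u`
  set u : ℝ := 5 + C₀ * (1 + Real.log a) ^ c₀ with hu
  have hlog : 0 ≤ Real.log a := Real.log_nonneg (by exact_mod_cast ha0)
  have hu5 : 5 ≤ u := by
    have : 0 ≤ (1 + Real.log a) ^ c₀ := Real.rpow_nonneg (by linarith) _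
    have := mul_nonneg hC₀.le this
    linarith
  have hqu : (q : ℝ) ≤ u := by
    obtain ⟨r, hr⟩ : ∃ r, r = 300 * t / (a * a) := ⟨_, rfl⟩
    have e1 : a * a * r ≤ 300 * t := by rw [hr]; exact Nat.mul_div_le _ _
    have hqr : q = r + 5 := by rw [hq, hr, add_comm]
    have e2 : a * (40000 * (a * r)) ≤ a * (300 * b) := by
      calc a * (40000 * (a * r)) = 40000 * (a * a * r) := by ring
        _ ≤ 40000 * (300 * t) := Nat.mul_le_mul_left _ e1
        _ = 300 * (40000 * t) := by ring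
        _ ≤ 300 * (a * b) := Nat.mul_le_mul_left _ ht
        _ = a * (300 * b) := by ring
    have e3 := Nat.le_of_mul_le_mul_left e2 ha0
    have e4 : (a : ℝ) * r ≤ b := by
      have : a * r ≤ b := by
        generalize a * r = z at e3 ⊢
        omega
      exact_mod_cast this
    rw [hqr]
    have e5 : (r : ℝ) ≤ C₀ * (1 + Real.log a) ^ c₀ := by
      have : (a : ℝ) * r ≤ a * (C₀ * (1 + Real.log a) ^ c₀) := by
        calc (a : ℝ) * r ≤ b := e4
          _ ≤ C₀ * (1 + Real.log a) ^ c₀ * a := hbL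
          _ = a * (C₀ * (1 + Real.log a) ^ c₀) := by ring
      exact le_of_mul_le_mul_left this ha'
    push_cast
    rw [hu]
    linarith
  have hu8 : (q : ℝ) ^ 8 ≤ u ^ 8 := pow_le_pow_left₀ (Nat.cast_nonneg q) hqu 8
  have hqa : 600000000 * q ^ 8 ≤ a := by
    have : (600000000 : ℝ) * (q : ℝ) ^ 8 ≤ a := by
      refine le_trans (mul_le_mul_of_nonneg_left hu8 (by norm_num)) ?_
      exact_mod_cast hL
    exact_mod_cast this
  have hq1 : q ≤ q ^ 8 := Nat.le_self_pow (by norm_num) q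
  have hq2 : 10000 * q ≤ a := by
    calc 10000 * q ≤ 600000000 * q ^ 8 := Nat.mul_le_mul (by norm_num) hq1
      _ ≤ a := hqa
  have hba : b ≤ a * a := by
    have e1 : (b : ℝ) ≤ u * a := by
      refine hbL.trans (mul_le_mul_of_nonneg_right ?_ ha'.le)
      rw [hu]
      linarith
    have e2 : u ≤ a := by
      have e3 : u ≤ u ^ 8 := le_self_pow₀ (by linarith) (by norm_num)
      have e4 : (600000000 : ℝ) * u ^ 8 ≤ a := by exact_mod_cast hL
      nlinarith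
    have e5 : (b : ℝ) ≤ a * a := e1.trans (mul_le_mul_of_nonneg_right e2 ha'.le)
    exact_mod_cast e5
  have hb3 : 1000000 * a ≤ b := by
    clear hq h2 hqa hq1 hq2 ht
    omega
  have htb : 3999999999999 * a ≤ t := by
    clear hq h2 hqa hq1 hq2 ht
    omega
  refine core (q := q) hq ht hb3 ?_ hq2 h6 ?_ hbt
  · by_cases h1 : 300 * t ≤ a * a
    · have hQ : 300 * t / (a * a) ≤ 1 := by
        have e1 : 300 * t / (a * a) ≤ a * a / (a * a) := Nat.div_le_div_right h1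
        rwa [Nat.div_self (Nat.mul_pos ha0 ha0)] at e1
      have hq6 : q ≤ 6 := by
        rw [hq]
        exact Nat.add_le_add_left hQ 5
      have e1 : q ^ 8 ≤ 6 ^ 8 := Nat.pow_le_pow_left hq6 8
      calc 2000000 * q ^ 8 * a ≤ 2000000 * 6 ^ 8 * a :=
            Nat.mul_le_mul_right _ (Nat.mul_le_mul_left _ e1)
        _ ≤ 3999999999999 * a := Nat.mul_le_mul_right _ (by norm_num)
        _ ≤ t := htb
    · have e1 : 600000000 * q ^ 8 * a ≤ a * a := Nat.mul_le_mul_right _ hqa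
      have e2 : 300 * (2000000 * q ^ 8 * a) = 600000000 * q ^ 8 * a := by ring
      generalize 600000000 * q ^ 8 * a = z at e1 e2
      generalize 2000000 * q ^ 8 * a = y at e2 ⊢
      generalize a * a = x at e1 h1
      clear hq h2 hqa hq1 hq2 ht htb hb3 hb hbt
      omega
  · refine le_trans (Nat.pow_le_pow_left ?_ 4) h2
    have := Nat.mul_le_mul_left a hba
    omega

end Vale.Agent.P181.GK.H487
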